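import Vale.Agent.P167.N.H386.LocU
import Vale.Agent.P167.N.H208.SH.PS0
import Vale.Agent.P167.N.H208.ND.FP
import Vale.Agent.P167.N.H174.ND.Two
import Vale.Agent.P167.N.H542.Q.Um3
import Vale.Agent.P167.N.H662.L.Lay7
import Vale.Agent.P167.N.KitQ

/-!
# P167, the range `0 < q < 1`: the invisible charge with a universal normalisation, no hypotheses
-/

set_option autoImplicit false

open Set Filter Topology MeasureTheory
open scoped ComplexConjugate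

namespace Vale.Agent.P167.N.H386

open Vale.Agent.P167 Vale.Agent.P167.BR Vale.Agent.P167.FK
open Vale.Agent.P167.H208.SH
open Vale.Agent.P167.H411.Q (fb tW tW_pos zN bcw bcw_in)
open Vale.Agent.P167.BVP (Flat)
open Vale.Agent.P167.H411.B7 (Shp)
open Vale.Agent.P167.H519 (IsLim)
open Vale.Agent.P167.H825.Q (Bc qS kS bdG bdQ dob_qS)
open Vale.Agent.P167.H718 (Dob)
open Vale.Agent.P167.N.H411.Q (LocT)

variable {θ β : ℝ} {P : Measure Cfg}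

theorem exNear (h1 : Ang θ) (hP : IsLim (2 * Real.cos θ) P) : ExNear θ P :=
  fun _ _ _ hJ hK hK' => Vale.Agent.P167.N.H208.SH.ex_near h1.pos h1 h1.kit.rsw hP hJ hK hK'

/-- **The side of the base point**, all polygons. -/
theorem psideUF (h1 : Ang θ) (hP : IsLim (2 * Real.cos θ) P) :
    ∃ J₀ : ℕ, 0 < J₀ ∧ ∀ J : ℕ, J₀ ≤ J → ∃ K₀ : ℤ, 4 ≤ K₀ ∧ ∀ K : ℤ, K₀ ≤ K →
      PSideU θ P (chp J K) :=
  psideU h1.pos h1 (Vale.Agent.P167.N.H208.ND.s_ptp h1.pos h1 h1.kit.rsw h1.kit.srsw hP)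
    (Vale.Agent.P167.N.H174.ND.s_two h1.pos h1 h1.kit.rsw hP) (exNear h1 hP)

/-- **The charge `- θ` at a flat point is invisible**: one shape of the bump at the base point and
one normalisation for all polygons. -/
theorem locUF (h1 : Ang θ) (hβ : Real.cos (θ / 2 + β) = Real.sin θ) :
    ∃ J₀ : ℕ, 0 < J₀ ∧ ∀ J : ℕ, J₀ ≤ J → ∃ K₀ : ℤ, 4 ≤ K₀ ∧ ∀ K : ℤ, K₀ ≤ K →
      Shp Complex.I (chp J K) ∧ ∀ (S : CA.Dat) (w : Bool) {L : Filter ℕ} (hL : L ≤ atTop)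
        (hc : L.IsCountablyGenerated), (∀ᶠ n in L, Even n) → ∀ {η : ℕ → Cfg}
        (hη : ∀ᶠ n in L, Dob (η n) (S.D n) (qS S n) (kS S (bcw w) n)) {νp : ℂ} {rp : ℝ},
        Flat S.P S.bp νp rp → ∀ {χ : ℂ → ℝ}, Shp Complex.I χ →
        LocT θ ((Vale.Agent.P167.N.H542.Q.BD.famB
          (bdG S θ β (bcw w) (bcw_in w S.l) L hL hc η hη)) h1.pos h1 hβ) (chp J K) νp rp χ (zN θ χ)
          (tU θ (chp J K) S.tp S.r νp w) := by
  obtain ⟨P, hP⟩ := Vale.Agent.P167.N.H662.L.exists_isLim h1.kit h1.kit.rsw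
  have hUns := Vale.Agent.P167.N.H542.Q.Um.s_unsM h1.pos h1 h1.kit.rsw hP
  obtain ⟨J₀, hJ₀, h⟩ := psideUF h1 hP
  refine ⟨J₀, hJ₀, fun J hJ => ?_⟩
  obtain ⟨K₀, hK₀, h⟩ := h J hJ
  refine ⟨K₀, hK₀, fun K hK => ?_⟩
  have hs : Shp Complex.I (chp J K) := shp_chp (by omega) (by omega)
  exact ⟨hs, fun S w L hL hc hev η hη νp rp hF χ hχ =>
    locT_U h1.pos h1 hβ h1.kit.rsw hP hUns hs (h K hK) S w hL hc hev hη hF hχ⟩

/-- The families `bdQ`. -/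
theorem locUQ (h1 : Ang θ) (hβ : Real.cos (θ / 2 + β) = Real.sin θ) :
    ∃ J₀ : ℕ, 0 < J₀ ∧ ∀ J : ℕ, J₀ ≤ J → ∃ K₀ : ℤ, 4 ≤ K₀ ∧ ∀ K : ℤ, K₀ ≤ K →
      Shp Complex.I (chp J K) ∧ ∀ (S : CA.Dat) {L : Filter ℕ} (hL : L ≤ atTop)
        (hc : L.IsCountablyGenerated), (∀ᶠ n in L, Even n) → ∀ {νp : ℂ} {rp : ℝ},
        Flat S.P S.bp νp rp → ∀ {χ : ℂ → ℝ}, Shp Complex.I χ →
        (∀ hfr : Bc.free.In S.l, LocT θ ((Vale.Agent.P167.N.H542.Q.BD.famB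
          (bdQ S θ β .free hfr L hL hc)) h1.pos h1 hβ) (chp J K) νp rp χ (zN θ χ)
          (tU θ (chp J K) S.tp S.r νp false)) ∧
        (∀ hwi : Bc.wired.In S.l, LocT θ ((Vale.Agent.P167.N.H542.Q.BD.famB
          (bdQ S θ β .wired hwi L hL hc)) h1.pos h1 hβ) (chp J K) νp rp χ (zN θ χ)
          (tU θ (chp J K) S.tp S.r νp true)) := by
  obtain ⟨J₀, hJ₀, h⟩ := locUF h1 hβ
  refine ⟨J₀, hJ₀, fun J hJ => ?_⟩
  obtain ⟨K₀, hK₀, h⟩ := h J hJ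
  refine ⟨K₀, hK₀, fun K hK => ?_⟩
  obtain ⟨hs, h⟩ := h K hK
  refine ⟨hs, fun S L hL hc hev νp rp hF χ hχ => ⟨fun hfr => ?_, fun hwi => ?_⟩⟩
  · exact h S false hL hc hev (hL (dob_qS S .free)) hF hχ
  · exact h S true hL hc hev (hL (dob_qS S .wired)) hF hχ

end Vale.Agent.P167.N.H386
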