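import Vale.Agent.P167.N.H386.TCmp
import Vale.Agent.P167.N.H411.Q.LocZ

/-!
# P167, the range `0 < q < 1`: the invisible charge with a universal normalisation

The normalisation `tU` depends only on the place and the direction of the base point on its side.
-/

set_option autoImplicit false

open Set Filter Topology MeasureTheory
open scoped ComplexConjugate

namespace Vale.Agent.P167.N.H386

open Vale.Agent.P167 Vale.Agent.P167.BR Vale.Agent.P167.FK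
open Vale.Agent.P167.H208.SH
open Vale.Agent.P167.H411.Q (fb tW tW_pos zN bcw bcw_in)
open Vale.Agent.P167.BVP (Flat)
open Vale.Agent.P167.H411.B7 (Shp)
open Vale.Agent.P167.H519 (IsLim)
open Vale.Agent.P167.H825.Q (Bc qS kS bdG bdQ dob_qS)
open Vale.Agent.P167.H718 (Dob)
open Vale.Agent.P167.N.H411.Q (LocT)

variable {θ β : ℝ} {P : Measure Cfg}

/-- Some polygon has a base point of the given kind. -/
def HasB (tp : ℝ) (r : Fin 4) (νp : ℂ) : Prop :=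
  ∃ S : CA.Dat, S.tp = tp ∧ S.r = r ∧ ∃ rp : ℝ, Flat S.P S.bp νp rp

open Classical in
/-- The normalisation at the base point. -/
noncomputable def tU (θ : ℝ) (χp : ℂ → ℝ) (tp : ℝ) (r : Fin 4) (νp : ℂ) (w : Bool) :
    ℝ → ℕ → ℝ :=
  if h : HasB tp r νp then tW θ (Classical.choose h) w χp νp else fun _ _ => 1

theorem tU_pos (θ : ℝ) (χp : ℂ → ℝ) (tp : ℝ) (r : Fin 4) (νp : ℂ) (w : Bool) (ρ : ℝ) (n : ℕ) :
    0 < tU θ χp tp r νp w ρ n := by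
  unfold tU
  split_ifs with h
  · exact tW_pos _ _ _ _ _ _ _
  · exact one_pos

/-- The normalisation of a polygon and the universal one. -/
theorem tU_cmp {χp : ℂ → ℝ} (hU : PSideU θ P χp) (S : CA.Dat) {νp : ℂ} {rp : ℝ}
    (hF : Flat S.P S.bp νp rp) (w : Bool) {ε : ℝ} (hε : 0 < ε) : ∃ δ : ℝ, 0 < δ ∧
    ∀ ρ : ℝ, 0 < ρ → ρ ≤ δ → ∀ᶠ n : ℕ in atTop, Even n →
      |tW θ S w χp νp ρ n - tU θ χp S.tp S.r νp w ρ n| ≤ ε * tU θ χp S.tp S.r νp w ρ n := by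
  have hB : HasB S.tp S.r νp := ⟨S, rfl, rfl, rp, hF⟩
  have e : tU θ χp S.tp S.r νp w = tW θ (Classical.choose hB) w χp νp := by
    unfold tU
    rw [dif_pos hB]
  obtain ⟨S₀, hS₀⟩ : ∃ S₀, S₀ = Classical.choose hB := ⟨_, rfl⟩
  obtain ⟨a1, a2, rp', a3⟩ := Classical.choose_spec hB
  rw [e]
  rw [← hS₀] at a1 a2 a3 ⊢
  obtain ⟨δ, hδ, h⟩ := tW_cmp (θ := θ) hU (S₀ := S₀) (S := S) ⟨a1.symm, a2.symm⟩ a3 hF w hε
  refine ⟨δ, hδ, fun ρ hρ hρδ => ?_⟩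
  filter_upwards [h ρ hρ hρδ] with n hn hev
  exact hn (even_trv S₀ S hev)

/-- **The charge `- θ` at a flat point is invisible**, universal normalisation. -/
theorem locT_U (h0 : 0 < θ) (h1 : Ang θ) (hβ : Real.cos (θ / 2 + β) = Real.sin θ)
    (hR : RSW (2 * Real.cos θ)) (hP : IsLim (2 * Real.cos θ) P)
    (hUns : Vale.Agent.P167.N.H411.Q.S_unsM θ P) {χp : ℂ → ℝ} (hχp : Shp Complex.I χp)
    (hU : PSideU θ P χp) (S : CA.Dat) (w : Bool) {L : Filter ℕ} (hL : L ≤ atTop)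
    (hc : L.IsCountablyGenerated) (hev : ∀ᶠ n in L, Even n) {η : ℕ → Cfg}
    (hη : ∀ᶠ n in L, Dob (η n) (S.D n) (qS S n) (kS S (bcw w) n)) {νp : ℂ} {rp : ℝ}
    (hFp : Flat S.P S.bp νp rp) {χ : ℂ → ℝ} (hχ : Shp Complex.I χ) :
    LocT θ ((Vale.Agent.P167.N.H542.Q.BD.famB (bdG S θ β (bcw w) (bcw_in w S.l) L hL hc η hη))
      h0 h1 hβ) χp νp rp χ (zN θ χ) (tU θ χp S.tp S.r νp w) := by
  refine (Vale.Agent.P167.N.H411.Q.locT h0 h1 hβ hR hP hUns w hL hc hη hχp hFp (hU.pSide S hFp w)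
    hχ).cmp hFp.pos (fun ρ n => tU_pos _ _ _ _ _ _ _ _) fun ε hε => ?_
  obtain ⟨δ, hδ, h⟩ := tU_cmp hU S hFp w hε
  refine ⟨δ, hδ, fun ρ hρ hρδ => ?_⟩
  have h2 := hL (h ρ hρ hρδ)
  show ∀ᶠ n in L, _
  filter_upwards [h2, hev] with n h3 h4
  exact h3 h4

end Vale.Agent.P167.N.H386
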