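import Vale.Agent.P167.N.Kit
import Vale.Agent.P167.H208.SH.PS3

/-!
# P167, the range `0 < q < 1`: the side of the base point, two polygons with the same window

`psideU0` : the functional with the bump next to the base point and the point charge `- θ` at a far
boundary site depends little on the polygon outside of the window.
-/

set_option autoImplicit false

open Set Filter Topology MeasureTheory
open scoped ComplexConjugate

namespace Vale.Agent.P167.N.H386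

open Vale.Agent.P167 Vale.Agent.P167.BR Vale.Agent.P167.FK
open Vale.Agent.P167.H208.SH
open Vale.Agent.P167.CA (cms)
open Vale.Agent.P167.H411.Q (fb)
open Vale.Agent.P167.E6 (pt IsPolygon Encloses)
open Vale.Agent.P167.H436.ND
open Vale.Agent.P167.H135 (Mov)
open Vale.Agent.P167.QB (XG dlt Nf dq flt_of)
open Vale.Agent.P167.H562.QM (FltQ NbP)
open Vale.Agent.P167.H519 (IsLim)
open Vale.Agent.P167.H640.ND (Mq Ex_XG_mov)
open Vale.Agent.P167.H174.ND (xg_base_even poly_rot)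

variable {θ : ℝ} {P : Measure Cfg}

section

variable {N : ℕ} {q : ZMod N → ℤ × ℤ} {D : Finset (ℤ × ℤ)} {l : ℕ}

theorem fac_pos (h1 : Ang θ) (v : ℤ × ℤ) : 0 < fac θ v := by
  have h2 := h1.cos_pos
  unfold fac
  split_ifs
  · norm_num
  · positivity

theorem fac_ge (h1 : Ang θ) (v : ℤ × ℤ) : 1 / 2 ≤ fac θ v := by
  have h2 := h1.cos_pos
  have h3 := Real.cos_le_one θ
  unfold fac
  split_ifs
  · norm_num
  · rw [one_div]
    exact inv_anti₀ (by linarith) (by linarith)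

theorem fac_le (h1 : Ang θ) (v : ℤ × ℤ) : fac θ v ≤ (2 * Real.cos θ)⁻¹ := by
  have h2 := h1.kit.lt
  have h3 := h1.kit.pos
  unfold fac
  split_ifs
  · exact (one_le_inv₀ h3).2 h2.le
  · exact le_rfl

theorem w_eqU (h0 : 0 < θ) (h1 : Ang θ) (hq : IsPolygon q) (hD : Encloses q D)
    (hl : l < N) (he : ((q l).1 + (q l).2) % 2 = 0) (M : Mov) {F : ℤ × ℤ → ℝ}
    (hF : ∀ z, F z ≠ 0 → z ∈ sites D) (hs : ∑ᶠ z, F z = θ) :
    Ex (2 * Real.cos θ) D eta0 (XG θ q D N (fun z => F z - dlt (q l) θ z)) =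
      fac θ (q 0) * Ex (2 * Real.cos θ) (M.S D) eta0
        (XG θ (Mq M (qsh q l)) (M.S D) N (fun z => M.F F z + dlt (M.t (q 0)) (-θ) z)) := by
  have hpi := Real.pi_pos
  have e1 : (fun z => F z - dlt (q l) θ z) = fun z => F z + dlt (q l) (-θ) z := by
    funext z
    unfold dlt
    split_ifs <;> ring
  have e2 : XG θ q D N (fun z => F z + dlt (q l) (-θ) z) = fun ω => fac θ (q 0) *
      XG θ (qsh q l) D N (fun z => F z + dlt (q 0) (-θ) z) ω := by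
    funext ω
    exact xg_base_even h0 h1.lt hq hD hl (fun i => rfl) hF hs he ω
  have e3 := Ex_XG_mov M (2 * Real.cos θ) θ (D := D) (k := N)
    (poly_rot hq (q' := qsh q l) (fun i => rfl)) eta0 (fun z => F z + dlt (q 0) (-θ) z)
  rw [F_dlt] at e3
  have e4 : M.c eta0 = eta0 := rfl
  rw [e4] at e3
  rw [e1, e2, FKA.Ex_mul_left, e3]

variable {J : ℕ} {K : ℤ} {r0 : ℝ} {M : Mov} {ν cc : ℂ} {o : ℤ × ℤ} {n : ℕ} {ρ : ℝ} {R : ℤ}

/-- The functional in the frame. -/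
theorem wp_eqU (hS : Sit K r0 q D M ν cc o n ρ R) (hJ : 0 < J) (hK : 1 ≤ K)
    (h80 : 80 ≤ a00 J K (n * ρ)) (h0 : 0 < θ) (h1 : Ang θ) (hl : Far q M R l) :
    Wp θ (chp J K) ν cc ρ n o q D l = fac θ (q 0) * Ex (2 * Real.cos θ) (M.S D) eta0
      (XG θ (Mq M (qsh q l)) (M.S D) N
        (Ft (fun _ : Fin J => θ / J) (fi J K M ν cc o n ρ) (dlt (M.t (q 0)) (-θ)))) := by
  unfold Wp
  rw [w_eqU h0 h1 hS.poly hS.enc hl.lt hl.even M (Fp_supp hS hJ hK h80) (Fp_sum hS hJ hK h80),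
    F_fi hS hJ hK h80]
  rfl

/-- The functional in any frame. -/
theorem wp_eqV (hS : Sit K r0 q D M ν cc o n ρ R) (hJ : 0 < J) (hK : 1 ≤ K)
    (h80 : 80 ≤ a00 J K (n * ρ)) (h0 : 0 < θ) (h1 : Ang θ) (hl : l < N)
    (he : ((q l).1 + (q l).2) % 2 = 0) (M' : Mov) :
    Wp θ (chp J K) ν cc ρ n o q D l = fac θ (q 0) * Ex (2 * Real.cos θ) (M'.S D) eta0
      (XG θ (Mq M' (qsh q l)) (M'.S D) N
        (fun z => M'.F (Fp θ (chp J K) ν cc ρ n o) z + dlt (M'.t (q 0)) (-θ) z)) := by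
  unfold Wp
  rw [w_eqU h0 h1 hS.poly hS.enc hl he M' (Fp_supp hS hJ hK h80) (Fp_sum hS hJ hK h80)]

end

/-- The comparison of the exponents at neighbouring scales. -/
def ExNear (θ : ℝ) (P : Measure Cfg) : Prop :=
  ∀ (J : ℕ) (K : ℤ) (K' : ℝ), 0 < J → 1 ≤ K → 1 ≤ K' → ∃ C r0 : ℝ, 0 ≤ C ∧ ∀ x : ℝ, r0 ≤ x →
    |Real.tan θ * θ * NbP P (dq K' (⌈x⌉ + 1)) -
      Ex0 θ P (fun _ : Fin J => θ / J) (asq J K x)| ≤ C

/-- **The side of the base point, two polygons.** -/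
theorem psideU0 (h0 : 0 < θ) (h1 : Ang θ) (hptp : S_ptp θ P) (htwo : H436.ND.S_two θ P)
    (hnear : ExNear θ P) :
    ∃ J₀ : ℕ, 0 < J₀ ∧ ∀ J : ℕ, J₀ ≤ J → ∃ K₀ : ℤ, 4 ≤ K₀ ∧ ∀ K : ℤ, K₀ ≤ K →
    ∃ α : ℝ, 0 < α ∧ ∀ K' : ℝ, 1 ≤ K' → ∃ (c C r0 : ℝ), 0 < c ∧ 0 < C ∧
    ∀ (N N' : ℕ) (q : ZMod N → ℤ × ℤ) (q' : ZMod N' → ℤ × ℤ) (D D' : Finset (ℤ × ℤ))
      (M M' M₂ : Mov) (ν ν' cc cc' : ℂ) (o o' : ℤ × ℤ) (n : ℕ) (ρ : ℝ) (R : ℤ),
      Sit K r0 q D M ν cc o n ρ R → Sit K r0 q' D' M' ν' cc' o' n ρ R →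
      M₂.t (q' 0) = M.t (q 0) →
      M₂.F (Fp θ (chp J K) ν' cc' ρ n o') = M.F (Fp θ (chp J K) ν cc ρ n o) →
      fac θ (q 0) = fac θ (q' 0) → FltQ (M₂.S D') eta0 (M₂.t (q' 0)) R false false →
      ∀ l l' : ℕ, Far q M R l → Far q' M₂ R l' →
      c ≤ Wp θ (chp J K) ν cc ρ n o q D l * Nf θ K' P (⌈(n : ℝ) * ρ⌉ + 1) ∧
      Wp θ (chp J K) ν cc ρ n o q D l * Nf θ K' P (⌈(n : ℝ) * ρ⌉ + 1) ≤ C ∧
      |Wp θ (chp J K) ν cc ρ n o q D l - Wp θ (chp J K) ν' cc' ρ n o' q' D' l'| ≤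
        C * ((n * ρ) / R) ^ α * Wp θ (chp J K) ν cc ρ n o q D l := by
  obtain ⟨J₀, hJ₀, hptp⟩ := hptp
  obtain ⟨α, hα, htwo⟩ := htwo
  refine ⟨J₀, hJ₀, fun J hJJ => ?_⟩
  have hJ : 0 < J := lt_of_lt_of_le hJ₀ hJJ
  obtain ⟨K₀, hK₀, hptp⟩ := hptp J hJJ B0 B0_pos
  refine ⟨K₀, hK₀, fun K hKK => ⟨α, hα, fun K' hK' => ?_⟩⟩
  obtain ⟨c1, C1, A1, hc1, hptp⟩ := hptp K hKK
  obtain ⟨C2, A2, htwo⟩ := htwo J B0 hJ B0_pos (2 * K)
  have hK4 : 4 ≤ K := hK₀.trans hKK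
  have hK : 1 ≤ K := by omega
  have hK1 : (1 : ℝ) ≤ K := by exact_mod_cast hK
  have hK4' : (4 : ℝ) ≤ K := by exact_mod_cast hK4
  obtain ⟨C3, r3, hC3, hex⟩ := hnear J K K' hJ hK hK'
  obtain ⟨fU, hfU⟩ : ∃ fU, fU = (2 * Real.cos θ)⁻¹ := ⟨_, rfl⟩
  have hfU1 : 1 ≤ fU := by
    rw [hfU]
    exact (one_le_inv₀ h1.kit.pos).2 h1.kit.lt.le
  set A : ℤ := max 80 (max A1 A2) with hA
  refine ⟨1 / 2 * c1 * Real.exp (-C3), max (fU * C1 * Real.exp C3) (|C2| / c1 + 1),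
    max r3 (2 * (K : ℝ) ^ (J - 1) * A), by positivity,
    lt_of_lt_of_le (by positivity) (le_max_right _ _), ?_⟩
  intro N N' q q' D D' M M' M₂ ν ν' cc cc' o o' n ρ R hSit hSit' hb hfi hfac hflt2 l l' hl hl'
  have hb1 : r3 ≤ n * ρ := (le_max_left _ _).trans hSit.big
  have hb2 : 2 * (K : ℝ) ^ (J - 1) * A ≤ n * ρ := (le_max_right _ _).trans hSit.big
  have hA0 := a00_ge hK hb2
  have h80 : 80 ≤ a00 J K (n * ρ) := (le_max_left _ _).trans hA0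
  have hA1 : A1 ≤ a00 J K (n * ρ) := ((le_max_left _ _).trans (le_max_right _ _)).trans hA0
  have hA2 : A2 ≤ a00 J K (n * ρ) := ((le_max_right _ _).trans (le_max_right _ _)).trans hA0
  have hnρ : 0 < (n : ℝ) * ρ := mul_pos (by exact_mod_cast hSit.n0) hSit.rho
  have hRpos : (0 : ℝ) < R := lt_of_lt_of_le (by positivity) hSit.top
  obtain ⟨k1, k2, k3⟩ := asq_scl hK (by omega : 64 ≤ a00 J K (n * ρ)) hA1 hSit.top
  obtain ⟨k4, -, -⟩ := asq_scl hK (by omega : 64 ≤ a00 J K (n * ρ)) hA2 hSit.top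
  -- the windows
  have hwin := win_mv hSit.poly hSit.enc hl.pos hl.lt M hSit.flt hl.off
  have hwin' := win_mv hSit'.poly hSit'.enc hl'.pos hl'.lt M₂ hflt2 hl'.off
  obtain ⟨g1, g2⟩ := hwin
  obtain ⟨g1', g2'⟩ := hwin'
  have hr1 : ((N - l : ℕ) : ℤ) + R ≤ N := by
    have h3 := flat_range g2.poly g2.enc g2.flat (by exact_mod_cast hRpos) g2.l1 g2.off
    omega
  have hr1' : ((N' - l' : ℕ) : ℤ) + R ≤ N' := by
    have h3 := flat_range g2'.poly g2'.enc g2'.flat (by exact_mod_cast hRpos) g2'.l1 g2'.off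
    omega
  have hflt : FltO (M.S D) eta0 (M.t (q 0)) R false false :=
    ⟨good_eta0, fun v _ _ _ _ => by simp [eta0]⟩
  have hflt' : FltO (M₂.S D') eta0 (M.t (q 0)) R false false :=
    ⟨good_eta0, fun v _ _ _ _ => by simp [eta0]⟩
  obtain ⟨E, hE⟩ : ∃ E : ℝ, E = Ex (2 * Real.cos θ) (M.S D) eta0
      (XG θ (Mq M (qsh q l)) (M.S D) N
        (Ft (fun _ : Fin J => θ / J) (fi J K M ν cc o n ρ) (dlt (M.t (q 0)) (-θ)))) := ⟨_, rfl⟩
  obtain ⟨E', hE'⟩ : ∃ E' : ℝ, E' = Ex (2 * Real.cos θ) (M₂.S D') eta0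
      (XG θ (Mq M₂ (qsh q' l')) (M₂.S D') N'
        (Ft (fun _ : Fin J => θ / J) (fi J K M ν cc o n ρ) (dlt (M.t (q 0)) (-θ)))) := ⟨_, rfl⟩
  obtain ⟨x, hx⟩ : ∃ x : ℝ, x = Ex0 θ P (fun _ : Fin J => θ / J) (asq J K (n * ρ)) := ⟨_, rfl⟩
  have hbp := bp_fi hSit hJ hK h80
  have hW : Wp θ (chp J K) ν cc ρ n o q D l = fac θ (q 0) * E := by
    rw [hE]
    exact wp_eqU hSit hJ hK h80 h0 h1 hl
  have hW' : Wp θ (chp J K) ν' cc' ρ n o' q' D' l' = fac θ (q 0) * E' := by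
    rw [hE', wp_eqV hSit' hJ hK h80 h0 h1 hl'.lt hl'.even M₂, ← hfac, hb, hfi,
      F_fi hSit hJ hK h80]
    rfl
  have hP1 : c1 ≤ E * Real.exp x ∧ E * Real.exp x ≤ C1 := by
    have h2 := hptp N (Mq M (qsh q l)) (M.S D) N (N - l) R eta0 g2 hr1 le_rfl
      (dobf _ _) (by rw [g1]; exact hflt) (asq J K (n * ρ)) k1 k2 k3 (fi J K M ν cc o n ρ)
      (fun i => by rw [g1]; exact hbp i)
    rw [g1] at h2
    rw [hE, hx]
    exact h2
  have hT : |E - E'| * Real.exp x ≤ |C2| * ((n * ρ) / R) ^ α := by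
    have h4 : Scl A2 4 R (asq J K (n * ρ)) := by
      refine ⟨k4.pos, fun i j hij => ?_, k4.top⟩
      have h5 := k4.step i j hij
      have h6 : 80 ≤ asq J K (n * ρ) i :=
        h80.trans (asq_bd hK (by omega : 64 ≤ a00 J K (n * ρ)) i).2.2.1
      nlinarith
    have h2 := htwo N N' (Mq M (qsh q l)) (Mq M₂ (qsh q' l')) (M.S D) (M₂.S D') N (N - l) N'
      (N' - l') R eta0 eta0 g2 g2' (g1.trans (hb.symm.trans g1'.symm)) hr1 le_rfl (dobf _ _)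
      (by rw [g1]; exact hflt) hr1' le_rfl (dobf _ _) (by rw [g1]; exact hflt')
      (asq J K (n * ρ)) h4 k3 (fi J K M ν cc o n ρ) (fun i => by rw [g1]; exact hbp i)
    rw [g1] at h2
    rw [hE, hE', hx]
    refine h2.trans ?_
    have hne : Nonempty (Fin J) := ⟨⟨0, hJ⟩⟩
    have h5 : (⨆ i, (asq J K (n * ρ) i : ℝ) / R) ≤ (n * ρ) / R := by
      refine ciSup_le fun i => div_le_div_of_nonneg_right ?_ hRpos.le
      have h6 := (asq_bd hK (by omega : 64 ≤ a00 J K (n * ρ)) i).2.2.2.1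
      linarith
    have h6 : 0 ≤ (⨆ i, (asq J K (n * ρ) i : ℝ) / R) := by
      refine Real.iSup_nonneg fun i => div_nonneg ?_ hRpos.le
      have h7 : 80 ≤ asq J K (n * ρ) i :=
        h80.trans (asq_bd hK (by omega : 64 ≤ a00 J K (n * ρ)) i).2.2.1
      exact_mod_cast (by omega : 0 ≤ asq J K (n * ρ) i)
    exact mul_le_mul (le_abs_self _) (Real.rpow_le_rpow h6 h5 hα.le) (Real.rpow_nonneg h6 _)
      (abs_nonneg _)
  -- the exponents
  obtain ⟨y, hy⟩ : ∃ y : ℝ, y = Real.tan θ * θ * NbP P (dq K' (⌈(n : ℝ) * ρ⌉ + 1)) := ⟨_, rfl⟩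
  have hN : Nf θ K' P (⌈(n : ℝ) * ρ⌉ + 1) = Real.exp y := by
    rw [hy]
    unfold QB.Nf
    rfl
  have hxy : |y - x| ≤ C3 := by
    rw [hy, hx]
    exact hex _ hb1
  have hxy' := abs_le.1 hxy
  have hf0 := fac_pos h1 (q 0)
  have hf1 := fac_ge h1 (q 0)
  have hf2 := fac_le h1 (q 0)
  rw [← hfU] at hf2
  obtain ⟨p1, p2⟩ := hP1
  have hEl : 0 < E := by
    by_contra hcon
    have := Real.exp_pos x
    nlinarith
  have e5 : E * Real.exp y = E * Real.exp x * Real.exp (y - x) := by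
    rw [mul_assoc, ← Real.exp_add]
    congr 2
    ring
  have p3 : Real.exp (-C3) ≤ Real.exp (y - x) := Real.exp_le_exp.2 (by linarith)
  have p4 : Real.exp (y - x) ≤ Real.exp C3 := Real.exp_le_exp.2 hxy'.2
  have hC1 : 0 < C1 := lt_of_lt_of_le hc1 (p1.trans p2)
  rw [hW, hW', hN]
  refine ⟨?_, ?_, ?_⟩
  · rw [mul_assoc (fac θ (q 0)), e5]
    have h2 : c1 * Real.exp (-C3) ≤ E * Real.exp x * Real.exp (y - x) :=
      mul_le_mul p1 p3 (Real.exp_pos _).le (by linarith)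
    have h3 : 0 ≤ c1 * Real.exp (-C3) := by positivity
    calc 1 / 2 * c1 * Real.exp (-C3) = 1 / 2 * (c1 * Real.exp (-C3)) := by ring
      _ ≤ fac θ (q 0) * (E * Real.exp x * Real.exp (y - x)) :=
        mul_le_mul hf1 h2 h3 hf0.le
  · rw [mul_assoc (fac θ (q 0)), e5]
    have h2 : E * Real.exp x * Real.exp (y - x) ≤ C1 * Real.exp C3 :=
      mul_le_mul p2 p4 (Real.exp_pos _).le hC1.le
    have h3 : 0 ≤ E * Real.exp x * Real.exp (y - x) := by positivity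
    calc fac θ (q 0) * (E * Real.exp x * Real.exp (y - x)) ≤
        fU * (E * Real.exp x * Real.exp (y - x)) := mul_le_mul_of_nonneg_right hf2 h3
      _ ≤ fU * (C1 * Real.exp C3) := mul_le_mul_of_nonneg_left h2 (by linarith)
      _ = fU * C1 * Real.exp C3 := by ring
      _ ≤ _ := le_max_left _ _
  · obtain ⟨w, hw⟩ : ∃ w : ℝ, w = ((n * ρ) / R) ^ α := ⟨_, rfl⟩
    have hw0 : 0 ≤ w := by rw [hw]; positivity
    rw [← hw] at hT ⊢
    rw [← mul_sub, abs_mul, abs_of_nonneg hf0.le]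
    have h2 : |E - E'| ≤ |C2| / c1 * w * E := by
      have h3 : |E - E'| * Real.exp x * c1 ≤ |C2| * w * (E * Real.exp x) :=
        mul_le_mul hT p1 hc1.le (by positivity)
      have h4 : |E - E'| * c1 ≤ |C2| * w * E := by
        have h5 := Real.exp_pos x
        by_contra hcon
        push Not at hcon
        nlinarith [mul_lt_mul_of_pos_right hcon h5]
      calc |E - E'| = |E - E'| * c1 / c1 := by field_simp
        _ ≤ |C2| * w * E / c1 := div_le_div_of_nonneg_right h4 hc1.le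
        _ = _ := by ring
    have h6 : |C2| / c1 ≤ max (fU * C1 * Real.exp C3) (|C2| / c1 + 1) :=
      le_trans (by linarith) (le_max_right _ _)
    calc fac θ (q 0) * |E - E'| ≤ fac θ (q 0) * (|C2| / c1 * w * E) :=
          mul_le_mul_of_nonneg_left h2 hf0.le
      _ = |C2| / c1 * (w * (fac θ (q 0) * E)) := by ring
      _ ≤ max (fU * C1 * Real.exp C3) (|C2| / c1 + 1) * (w * (fac θ (q 0) * E)) :=
          mul_le_mul_of_nonneg_right h6 (by positivity)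
      _ = _ := by ring

end Vale.Agent.P167.N.H386
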