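import Vale.Agent.P167.N.H386.PSU
import Vale.Agent.P167.H411.Q.LocZ
import Vale.Agent.P167.H411.Q.As2

/-!
# P167, the range `0 < q < 1`: the side of the base point, two polygons with the same base side
-/

set_option autoImplicit false

open Set Filter Topology MeasureTheory
open scoped ComplexConjugate

namespace Vale.Agent.P167.N.H386

open Vale.Agent.P167 Vale.Agent.P167.BR Vale.Agent.P167.FK
open Vale.Agent.P167.H208.SH
open Vale.Agent.P167.CA (cms cl cms_eq mem_cl measurableSet_cl)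
open Vale.Agent.P167.H411.Q (fb ow Dw qw poly_w encl_w rN Mc)
open Vale.Agent.P167.E6 (pt dir IsPolygon Encloses)
open Vale.Agent.P167.H436.ND
open Vale.Agent.P167.H135 (Mov rk tra)
open Vale.Agent.P167.QB (XG dlt Nf Bq')
open Vale.Agent.P167.H562.QM (FltQ)
open Vale.Agent.P167.BVP (Flat)
open Vale.Agent.P167.H411.B7 (Shp)

variable {θ : ℝ} {P : Measure Cfg}

/-! ### translations -/

/-- The lattice bump of a translated bump. -/
theorem cms_shift (χ : ℂ → ℝ) (ν : ℂ) {c c' : ℂ} (ρ : ℝ) {n : ℕ} (hn : 0 < n) {a : ℤ × ℤ}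
    (hc : (n : ℂ) * (c - c') = pt a) (z : ℤ × ℤ) :
    cms (fb χ ν c' ρ) (1 / n) (z - a) = cms (fb χ ν c ρ) (1 / n) z := by
  have hn0 : (n : ℝ) ≠ 0 := by positivity
  have hnc : (n : ℂ) ≠ 0 := by exact_mod_cast hn.ne'
  rw [cms_eq, cms_eq, ← integral_indicator (measurableSet_cl _ _),
    ← integral_indicator (measurableSet_cl _ _),
    ← integral_sub_right_eq_self (fun x => (cl n (z - a)).indicator (fb χ ν c' ρ) x) (c - c')]
  refine integral_congr_ae (Eventually.of_forall fun x => ?_)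
  have hre : n * (c - c').re = a.1 := by
    have := congrArg Complex.re hc
    simpa [pt] using this
  have him : n * (c - c').im = a.2 := by
    have := congrArg Complex.im hc
    simpa [pt] using this
  have hm : x - (c - c') ∈ cl n (z - a) ↔ x ∈ cl n z := by
    rw [mem_cl, mem_cl]
    unfold CA.cs
    have e1 : (x - (c - c')).re * n = x.re * n - a.1 := by
      rw [Complex.sub_re, sub_mul, ← hre]; ring
    have e2 : (x - (c - c')).im * n = x.im * n - a.2 := by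
      rw [Complex.sub_im, sub_mul, ← him]; ring
    rw [e1, e2, Int.floor_sub_intCast, Int.floor_sub_intCast]
    simp only [Prod.ext_iff, Prod.fst_sub, Prod.snd_sub]
    constructor
    · rintro ⟨h1, h2⟩
      exact ⟨by omega, by omega⟩
    · rintro ⟨h1, h2⟩
      exact ⟨by omega, by omega⟩
  have hf : fb χ ν c' ρ (x - (c - c')) = fb χ ν c ρ x := by
    unfold fb
    congr 2
    ring
  by_cases hx : x ∈ cl n z
  · simp only [indicator_of_mem hx, indicator_of_mem (hm.2 hx)]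
    exact hf
  · have hx' : x - (c - c') ∉ cl n (z - a) := fun h => hx (hm.1 h)
    simp only [indicator_of_notMem hx, indicator_of_notMem hx']

theorem fltQ_tr {D : Finset (ℤ × ℤ)} {u : ℤ × ℤ} {R : ℤ} {j : Fin 4} {a : ℤ × ℤ}
    (ha : Even (a.1 + a.2)) (h : FltQ ((rk j).S D) eta0 ((rk j).t u) R false false) :
    FltQ ((Mc j a ha).S D) eta0 ((Mc j a ha).t u) R false false where
  dom v hv := by
    have e1 : (Mc j a ha).t u = (rk j).t u + (rk j).t a := by
      rw [H411.Q.Mc_t, H135.rk_add]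
    rw [e1] at hv ⊢
    have e2 : v ∈ (Mc j a ha).S D ↔ v - (rk j).t a ∈ (rk j).S D := by
      unfold Mov.S
      rw [Finset.mem_image, Finset.mem_image]
      constructor
      · rintro ⟨x, hx, rfl⟩
        refine ⟨x, hx, ?_⟩
        rw [H411.Q.Mc_s, H411.Q.rk_s_add, add_sub_cancel_right]
      · rintro ⟨x, hx, hx2⟩
        refine ⟨x, hx, ?_⟩
        rw [H411.Q.Mc_s, H411.Q.rk_s_add, hx2, sub_add_cancel]
    have e3 : v - ((rk j).t u + (rk j).t a) = v - (rk j).t a - (rk j).t u := by abel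
    rw [e3] at hv
    rw [e2, h.dom _ hv]
    simp only [Prod.snd_sub, Prod.snd_add]
    omega
  out v _ _ := by
    show false = if v.1 < ((Mc j a ha).t u).1 then false else false
    split_ifs <;> rfl

/-- Two polygons with the same side of the base point, up to a translation. -/
structure SameB (S S' : CA.Dat) : Prop where
  tp : S'.tp = S.tp
  r : S'.r = S.r

/-- The translation. -/
def trv (S S' : CA.Dat) (n : ℕ) : ℤ × ℤ := (n : ℤ) • (S.p 0 - S'.p 0)

theorem SameB.b {S S' : CA.Dat} (h : SameB S S') (n : ℕ) : S'.b n + trv S S' n = S.b n := by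
  unfold CA.Dat.b trv
  rw [h.tp, h.r, smul_sub]
  abel

theorem SameB.bp {S S' : CA.Dat} (h : SameB S S') (n : ℕ) :
    (n : ℂ) * (S.bp - S'.bp) = pt (trv S S' n) := by
  unfold CA.Dat.bp trv
  rw [h.tp, h.r]
  apply Complex.ext <;> simp [pt]

theorem SameB.symm {S S' : CA.Dat} (h : SameB S S') : SameB S' S := ⟨h.tp.symm, h.r.symm⟩

theorem SameB.refl (S : CA.Dat) : SameB S S := ⟨rfl, rfl⟩

theorem trv_self (S : CA.Dat) (n : ℕ) : trv S S n = 0 := by
  unfold trv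
  rw [sub_self, smul_zero]

theorem even_trv (S S' : CA.Dat) {n : ℕ} (hn : Even n) :
    Even ((trv S S' n).1 + (trv S S' n).2) := by
  unfold trv
  have e : ((n : ℤ) • (S.p 0 - S'.p 0)).1 + ((n : ℤ) • (S.p 0 - S'.p 0)).2 =
      (n : ℤ) * ((S.p 0 - S'.p 0).1 + (S.p 0 - S'.p 0).2) := by
    simp only [Prod.smul_fst, Prod.smul_snd, smul_eq_mul]
    ring
  rw [e]
  have : Even (n : ℤ) := by exact_mod_cast hn
  exact this.mul_right _

theorem SameB.qw0 {S S' : CA.Dat} (h : SameB S S') (w : Bool) {n : ℕ} (hn : 0 < n) :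
    qw S' w n 0 + trv S S' n = qw S w n 0 := by
  have e : ∀ T : CA.Dat, qw T w n 0 = T.b n + ow w := fun T => by
    show H825.Q.qS T n 0 + ow w = _
    rw [H825.Q.qS_zero T hn]
  rw [e, e, ← h.b n]
  abel

/-- The parity of the base site. -/
theorem SameB.fac0 {S S' : CA.Dat} (h : SameB S S') (w : Bool) {n : ℕ} (hn : 0 < n)
    (hev : Even ((trv S S' n).1 + (trv S S' n).2)) (θ : ℝ) :
    fac θ (qw S w n 0) = fac θ (qw S' w n 0) := by
  have h1 := hev
  rw [Int.even_iff] at h1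
  have h2 := h.qw0 w hn
  unfold H208.SH.fac
  have h3 : ((qw S w n 0).1 + (qw S w n 0).2) % 2 = 0 ↔
      ((qw S' w n 0).1 + (qw S' w n 0).2) % 2 = 0 := by
    rw [← h2]
    simp only [Prod.fst_add, Prod.snd_add]
    omega
  by_cases h4 : ((qw S w n 0).1 + (qw S w n 0).2) % 2 = 0
  · rw [if_pos h4, if_pos (h3.1 h4)]
  · rw [if_neg h4, if_neg fun h5 => h4 (h3.2 h5)]

/-- The bumps of the two polygons. -/
theorem SameB.F {S S' : CA.Dat} (h : SameB S S') {n : ℕ} (hn : 0 < n)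
    (hev : Even ((trv S S' n).1 + (trv S S' n).2)) (j : Fin 4)
    (χ : ℂ → ℝ) (νp : ℂ) (ρ : ℝ) (o : ℤ × ℤ) :
    (Mc j (trv S S' n) hev).F (Fp θ χ νp S'.bp ρ n o) =
      (rk j).F (Fp θ χ νp S.bp ρ n o) := by
  funext z
  have e : (Mc j (trv S S' n) hev).t.symm z =
      (rk j).t.symm z - trv S S' n := by
    rw [Equiv.symm_apply_eq, H411.Q.Mc_t, sub_add_cancel, Equiv.apply_symm_apply]
  show Fp θ χ νp S'.bp ρ n o ((Mc j (trv S S' n) hev).t.symm z) =
    Fp θ χ νp S.bp ρ n o ((rk j).t.symm z)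
  rw [e]
  unfold Fp
  have e2 : (rk j).t.symm z - trv S S' n - o = ((rk j).t.symm z - o) - trv S S' n := by abel
  rw [e2, cms_shift χ νp ρ hn (h.bp n)]

/-- The statement of the comparison of two polygons, one shape of the bump. -/
def PSideU (θ : ℝ) (P : Measure Cfg) (χp : ℂ → ℝ) : Prop :=
  ∃ α : ℝ, 0 < α ∧ ∃ K₀ : ℝ, 1 ≤ K₀ ∧ ∀ K : ℝ, K₀ ≤ K →
    (∀ (S : CA.Dat) (νp : ℂ) (rp : ℝ), Flat S.P S.bp νp rp → ∀ (w : Bool) (j : Fin 4),
      (∀ z : ℤ × ℤ, pt ((rk j).t z) = Complex.I * conj νp * pt z) → ∀ ρ : ℝ, 0 < ρ →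
      ∀ᶠ n : ℕ in atTop, Bq' θ K ((rk j).t (qw S w n 0)) (rN n ρ)
        ((rk j).F fun z => θ * cms (fb χp νp S.bp ρ) (1 / n) (z - ow w))) ∧
    ∃ c C τ : ℝ, 0 < c ∧ 0 < C ∧ 0 < τ ∧ ∀ (S S' : CA.Dat) (νp : ℂ) (rp rp' : ℝ), SameB S S' →
      Flat S.P S.bp νp rp → Flat S'.P S'.bp νp rp' →
      ∀ (w : Bool) (r : ℝ), 0 < r → ∀ ρ : ℝ, 0 < ρ → ρ ≤ τ * min (min rp rp') r →
      ∀ᶠ n : ℕ in atTop, Even ((trv S S' n).1 + (trv S S' n).2) → ∀ l l' : ℕ,
        Gd S w n r l → Gd S' w n r l' →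
        c ≤ WS θ χp S νp w n l ρ * Nf θ K P (rN n ρ) ∧
        WS θ χp S νp w n l ρ * Nf θ K P (rN n ρ) ≤ C ∧
        |WS θ χp S νp w n l ρ - WS θ χp S' νp w n l' ρ| ≤
          C * (ρ / min (min rp rp') r) ^ α * WS θ χp S νp w n l ρ

/-- **The side of the base point**, all polygons. -/
theorem psideU (h0 : 0 < θ) (h1 : Ang θ) (hptp : S_ptp θ P) (htwo : H436.ND.S_two θ P)
    (hnear : ExNear θ P) :
    ∃ J₀ : ℕ, 0 < J₀ ∧ ∀ J : ℕ, J₀ ≤ J → ∃ K₀ : ℤ, 4 ≤ K₀ ∧ ∀ K : ℤ, K₀ ≤ K →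
      PSideU θ P (chp J K) := by
  obtain ⟨J₀, hJ₀, hmain⟩ := psideU0 h0 h1 hptp htwo hnear
  refine ⟨J₀, hJ₀, fun J hJJ => ?_⟩
  have hJ : 0 < J := lt_of_lt_of_le hJ₀ hJJ
  obtain ⟨K₀, hK₀, hmain⟩ := hmain J hJJ
  refine ⟨K₀, hK₀, fun K1 hKK => ?_⟩
  obtain ⟨α, hα, hmain⟩ := hmain K1 hKK
  have hK1 : 4 ≤ K1 := hK₀.trans hKK
  have hK11 : 1 ≤ K1 := by omega
  obtain ⟨K₀, hK₀, hbq⟩ := bq_chp (θ := θ) hJ hK11 h0
  refine ⟨α, hα, K₀, hK₀, fun K hK => ?_⟩
  obtain ⟨r1, hb⟩ := hbq K hK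
  obtain ⟨c, C, r0, hc, hC, hm⟩ := hmain K (hK₀.trans hK)
  have hK1r : (4 : ℝ) ≤ K1 := by exact_mod_cast hK1
  refine ⟨fun S νp rp hF w j hj ρ hρ => ?_, c, C * 8 ^ α, 1 / (8 * ((K1 : ℝ) + 8)), hc,
    by positivity, by positivity, fun S S' νp rp rp' hSS hF hF' w r hr ρ hρ hρτ => ?_⟩
  · have hlim : Tendsto (fun n : ℕ => (n : ℝ) * ρ) atTop atTop :=
      tendsto_natCast_atTop_atTop.atTop_mul_const hρ
    filter_upwards [eventually_gt_atTop 0, hlim.eventually_ge_atTop r1] with n hn hn1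
    exact hb (rk j) νp S.bp (ow w) (qw S w n 0) n ρ hj hF.norm (near_qw S w hn) hn hρ hn1
  · obtain ⟨j, hj, hwin⟩ := H980.ND.win_p S hF
    obtain ⟨j', hj', hwin'⟩ := H980.ND.win_p S' hF'
    have hjj : j' = j := by
      have h2 : ∀ z : ℤ × ℤ, (rk j').t z = (rk j).t z := fun z => by
        have h3 := (hj' z).trans (hj z).symm
        have h4 := congrArg Complex.re h3
        have h5 := congrArg Complex.im h3
        simp only [pt] at h4 h5
        exact Prod.ext (by exact_mod_cast h4) (by exact_mod_cast h5)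
      have h6 := h2 (1, 0)
      revert h6
      revert j'
      revert j
      refine fun j _ _ j' _ _ => ?_
      intro h2 h6
      fin_cases j <;> fin_cases j' <;>
        simp [H135.rk0_t, H135.rk1_t, H135.rk2_t, H135.rk3_t] at h6 ⊢
    subst hjj
    obtain ⟨m, hm0⟩ : ∃ m, m = min (min rp rp') r := ⟨_, rfl⟩
    have hmrp : m ≤ rp := by rw [hm0]; exact (min_le_left _ _).trans (min_le_left _ _)
    have hmrp' : m ≤ rp' := by rw [hm0]; exact (min_le_left _ _).trans (min_le_right _ _)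
    have hmr : m ≤ r := by rw [hm0]; exact min_le_right _ _
    rw [← hm0] at hρτ ⊢
    have hmin : 0 < m := by rw [hm0]; exact lt_min (lt_min hF.pos hF'.pos) hr
    have hlim : Tendsto (fun n : ℕ => (n : ℝ) * ρ) atTop atTop :=
      tendsto_natCast_atTop_atTop.atTop_mul_const hρ
    have hlim2 : Tendsto (fun n : ℕ => m * (n : ℝ)) atTop atTop :=
      Tendsto.const_mul_atTop hmin tendsto_natCast_atTop_atTop
    filter_upwards [hwin w, hwin' w, eventually_gt_atTop 0, hlim.eventually_ge_atTop r0,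
      hlim2.eventually_ge_atTop 32] with n hn hn' hn0 hn1 hn2 hev l l' hl hl'
    have hn0' : (0 : ℝ) < n := by exact_mod_cast hn0
    obtain ⟨R, hRd⟩ : ∃ R : ℤ, R = ⌊m * n / 4⌋ := ⟨_, rfl⟩
    have a1 : (R : ℝ) ≤ m * n / 4 := by rw [hRd]; exact Int.floor_le _
    have a2 : m * n / 4 < R + 1 := by rw [hRd]; exact Int.lt_floor_add_one _
    have a3 : m * n / 8 ≤ R := by linarith
    have hR1 : 1 ≤ R := by
      have : (1 : ℝ) ≤ R := by linarith
      exact_mod_cast this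
    have hR0 : (0 : ℝ) < R := by exact_mod_cast (by omega : 0 < R)
    have hflt := hn R hR1 (by
      have := mul_le_mul_of_nonneg_right hmrp hn0'.le
      linarith)
    have hflt' := hn' R hR1 (by
      have := mul_le_mul_of_nonneg_right hmrp' hn0'.le
      linarith)
    have htop : ((K1 : ℝ) + 8) * (n * ρ) ≤ R := by
      refine le_trans ?_ a3
      have h5 : ρ * (8 * ((K1 : ℝ) + 8)) ≤ m := by
        have := mul_le_mul_of_nonneg_right hρτ (by positivity : 0 ≤ 8 * ((K1 : ℝ) + 8))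
        calc ρ * (8 * ((K1 : ℝ) + 8)) ≤ 1 / (8 * ((K1 : ℝ) + 8)) * m *
              (8 * ((K1 : ℝ) + 8)) := this
          _ = m := by field_simp
      have := mul_le_mul_of_nonneg_right h5 hn0'.le
      linarith
    have hSit : Sit K1 r0 (qw S w n) (Dw S w n) (rk j') νp S.bp (ow w) n ρ R :=
      ⟨poly_w S w hn0, encl_w S w hn0, hj, hF.norm, near_qw S w hn0, hn0, hρ, hn1, htop, hflt⟩
    have hSit' : Sit K1 r0 (qw S' w n) (Dw S' w n) (rk j') νp S'.bp (ow w) n ρ R :=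
      ⟨poly_w S' w hn0, encl_w S' w hn0, hj, hF.norm, near_qw S' w hn0, hn0, hρ, hn1, htop, hflt'⟩
    have hd : ∀ (T : CA.Dat) (l : ℕ), Gd T w n r l → R < nm (qw T w n l - qw T w n 0) := by
      intro T l hl
      have h5 := hl.far
      have h6 := mul_le_mul_of_nonneg_right hmr hn0'.le
      have h7 : 0 < m * n := by positivity
      have : (R : ℝ) < nm (qw T w n l - qw T w n 0) := by linarith
      exact_mod_cast this
    have hfar : Far (qw S w n) (rk j') R l :=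
      ⟨hl.pos, hl.lt, Int.even_iff.1 hl.even, off_rk j' hR1 (hd S l hl)⟩
    have hfar' : Far (qw S' w n) (Mc j' (trv S S' n) hev) R l' := by
      refine ⟨hl'.pos, hl'.lt, Int.even_iff.1 hl'.even, ?_⟩
      rw [H411.Q.Mc_t, H411.Q.Mc_t]
      refine off_rk j' hR1 ?_
      rw [add_sub_add_right_eq_sub]
      exact hd S' l' hl'
    obtain ⟨g1, g2, g3⟩ := hm (S.l * n) (S'.l * n) (qw S w n) (qw S' w n) (Dw S w n) (Dw S' w n)
      (rk j') (rk j') (Mc j' (trv S S' n) hev) νp νp S.bp S'.bp (ow w) (ow w) n ρ R hSit hSit'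
      (by rw [H411.Q.Mc_t, hSS.qw0 w hn0]) (hSS.F hn0 hev j' _ νp ρ (ow w)) (hSS.fac0 w hn0 hev θ)
      (fltQ_tr hev hflt') l l' hfar hfar'
    rw [WS_eq, WS_eq]
    have h8 : (1 : ℝ) ≤ 8 ^ α := Real.one_le_rpow (by norm_num) hα.le
    have hWpos : 0 ≤ Wp θ (chp J K1) νp S.bp ρ n (ow w) (qw S w n) (Dw S w n) l := by
      by_contra hcon
      push Not at hcon
      have := QB.Nf_pos θ K P (⌈(n : ℝ) * ρ⌉ + 1)
      nlinarith
    refine ⟨g1, g2.trans (le_mul_of_one_le_right hC.le h8), g3.trans ?_⟩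
    have h9 : ((n * ρ) / R : ℝ) ^ α ≤ 8 ^ α * (ρ / m) ^ α := by
      rw [← Real.mul_rpow (by norm_num) (by positivity)]
      refine Real.rpow_le_rpow (by positivity) ?_ hα.le
      rw [div_le_iff₀ hR0]
      have h10 : (n : ℝ) * ρ = 8 * (ρ / m) * (m * n / 8) := by field_simp
      rw [h10]
      exact mul_le_mul_of_nonneg_left a3 (by positivity)
    calc C * ((n * ρ) / R : ℝ) ^ α * Wp θ (chp J K1) νp S.bp ρ n (ow w) (qw S w n) (Dw S w n) l ≤
        C * (8 ^ α * (ρ / m) ^ α) *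
          Wp θ (chp J K1) νp S.bp ρ n (ow w) (qw S w n) (Dw S w n) l :=
          mul_le_mul_of_nonneg_right (mul_le_mul_of_nonneg_left h9 hC.le) hWpos
      _ = _ := by ring

end Vale.Agent.P167.N.H386
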