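import Vale.Agent.P167.N.H386.PSU2

/-!
# P167, the range `0 < q < 1`: the normalisation at the base point does not depend on the polygon
-/

set_option autoImplicit false

open Set Filter Topology MeasureTheory
open scoped ComplexConjugate

namespace Vale.Agent.P167.N.H386

open Vale.Agent.P167 Vale.Agent.P167.BR Vale.Agent.P167.FK
open Vale.Agent.P167.H208.SH
open Vale.Agent.P167.CA (cms)
open Vale.Agent.P167.H411.Q (fb ow Dw qw rN Evl Okl Mxl Wl tW exists_mxl far_w PSide bpt nrm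
  junction_ne flat_bpt flat_le bpt_bp)
open Vale.Agent.P167.E6 (pt dir)
open Vale.Agent.P167.QB (Nf Bq')
open Vale.Agent.P167.BVP (Flat)
open Vale.Agent.P167.H135 (rk)

variable {θ : ℝ} {P : Measure Cfg}

/-- Far even indices. -/
theorem exists_far (S : CA.Dat) (w : Bool) : ∃ r : ℝ, 0 < r ∧ ∀ᶠ n : ℕ in atTop, ∃ l,
    Evl S w n l ∧ r * n ≤ 2 * (nm (qw S w n l - qw S w n 0) : ℝ) := by
  have hl : (2 : ℝ) < S.l := by exact_mod_cast S.poly.1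
  have h1 := S.tp1
  have h0 := S.tp0
  have hd := junction_ne S (i := 1) (t := 1 / 2) (by push_cast; linarith) (by push_cast; linarith)
  have hF := flat_bpt S 1 (t := 1 / 2) (by norm_num) (by norm_num)
  obtain ⟨c, hc⟩ : ∃ c, c = bpt S (((1 : ℤ) : ℝ) + 1 / 2) := ⟨_, rfl⟩
  rw [← hc] at hd hF
  obtain ⟨r, hr⟩ : ∃ r : ℝ, r = min (min (1 / 2) (1 - 1 / 2)) (dist c S.bp) := ⟨_, rfl⟩
  have hr0 : 0 < r := by rw [hr]; exact lt_min (by norm_num) hd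
  have hF' : Flat S.P c (nrm S 1) r := flat_le hF hr0 (by rw [hr]; exact min_le_left _ _)
  have hb : S.bp ∉ Metric.ball c r := fun hx => by
    rw [Metric.mem_ball, dist_comm] at hx
    exact absurd (hx.trans_le (by rw [hr]; exact min_le_right _ _)) (lt_irrefl _)
  obtain ⟨j, hj, hw⟩ := H980.ND.win_c S hF' hb
  have hlim : Tendsto (fun n : ℕ => r * (n : ℝ)) atTop atTop :=
    Tendsto.const_mul_atTop hr0 tendsto_natCast_atTop_atTop
  refine ⟨r / 2, by positivity, ?_⟩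
  filter_upwards [hw w, eventually_gt_atTop 0, hlim.eventually_ge_atTop 10] with n hn hn0 h10
  obtain ⟨l, he, l0, l1, hnear, -⟩ := hn
  have hfar := far_w hn0 hb hnear
  have he2 : Even ((qw S w n l).1 + (qw S w n l).2) := by
    have := he.neg
    have e0 : -((-(qw S w n l)).1 + (-(qw S w n l)).2) = (qw S w n l).1 + (qw S w n l).2 := by
      simp only [Prod.fst_neg, Prod.snd_neg]; ring
    rwa [e0] at this
  exact ⟨l, ⟨l0, l1, he2⟩, by linarith⟩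

theorem tW_spec {S : CA.Dat} {w : Bool} {χp : ℂ → ℝ} {νp : ℂ} {ρ r : ℝ} {n : ℕ}
    (hpos : ∀ l, Gd S w n r l → 0 < WS θ χp S νp w n l ρ)
    (hex : ∃ l, Evl S w n l ∧ r * n ≤ 2 * (nm (qw S w n l - qw S w n 0) : ℝ)) :
    ∃ l₁, Gd S w n r l₁ ∧ tW θ S w χp νp ρ n = WS θ χp S νp w n l₁ ρ := by
  obtain ⟨l, hl, hfar⟩ := hex
  have hG : ∀ l', Mxl S w n l' → Gd S w n r l' := by
    intro l' h'
    have h6 : (nm (qw S w n l - qw S w n 0) : ℝ) ≤ nm (qw S w n l' - qw S w n 0) := by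
      exact_mod_cast h'.2 l hl
    exact ⟨h'.1.1, h'.1.2.1, h'.1.2.2, by linarith⟩
  obtain ⟨l', h'⟩ := exists_mxl hl
  have hex : ∃ l, Mxl S w n l ∧ 0 < Wl θ S w χp νp ρ n l := ⟨l', h', hpos l' (hG l' h')⟩
  refine ⟨Classical.choose hex, hG _ (Classical.choose_spec hex).1, ?_⟩
  unfold tW
  rw [dif_pos hex]
  rfl

theorem pos_of_mul {a N c : ℝ} (hN : 0 < N) (hc : 0 < c) (h : c ≤ a * N) : 0 < a := by
  by_contra hneg
  push Not at hneg
  have := mul_nonneg (neg_nonneg.2 hneg) hN.le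
  linarith

/-- **The normalisations of two polygons.** -/
theorem tW_cmp {χp : ℂ → ℝ} (hU : PSideU θ P χp) {S₀ S : CA.Dat} (hS : SameB S₀ S) {νp : ℂ}
    {rp rp' : ℝ} (hF : Flat S₀.P S₀.bp νp rp) (hF' : Flat S.P S.bp νp rp') (w : Bool) {ε : ℝ}
    (hε : 0 < ε) : ∃ δ : ℝ, 0 < δ ∧ ∀ ρ : ℝ, 0 < ρ → ρ ≤ δ → ∀ᶠ n : ℕ in atTop,
      Even ((trv S₀ S n).1 + (trv S₀ S n).2) →
      |tW θ S w χp νp ρ n - tW θ S₀ w χp νp ρ n| ≤ ε * tW θ S₀ w χp νp ρ n := by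
  obtain ⟨α, hα, K₀, hK₀, h⟩ := hU
  obtain ⟨-, c, C, τ, hc, hC, hτ, h⟩ := h K₀ le_rfl
  obtain ⟨r₁, hr₁, hex₁⟩ := exists_far S₀ w
  obtain ⟨r₂, hr₂, hex₂⟩ := exists_far S w
  obtain ⟨r, hr⟩ : ∃ r, r = min r₁ r₂ := ⟨_, rfl⟩
  have hr0 : 0 < r := by rw [hr]; exact lt_min hr₁ hr₂
  have hra : r ≤ r₁ := by rw [hr]; exact min_le_left _ _
  have hrb : r ≤ r₂ := by rw [hr]; exact min_le_right _ _
  obtain ⟨m, hm⟩ : ∃ m, m = min (min rp rp') r := ⟨_, rfl⟩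
  have hm0 : 0 < m := by rw [hm]; exact lt_min (lt_min hF.pos hF'.pos) hr0
  obtain ⟨d, hd0, hd⟩ : ∃ d : ℝ, 0 < d ∧ C * d ^ α ≤ ε := by
    have h2 : Tendsto (fun x : ℝ => C * x ^ α) (𝓝 0) (𝓝 (C * (0 : ℝ) ^ α)) :=
      Tendsto.const_mul C (Real.continuousAt_rpow_const 0 α (Or.inr hα.le))
    rw [Real.zero_rpow hα.ne', mul_zero] at h2
    have h3 := h2.eventually (gt_mem_nhds hε)
    obtain ⟨δ, hδ, h4⟩ := Metric.eventually_nhds_iff.1 h3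
    refine ⟨δ / 2, by positivity, (h4 ?_).le⟩
    rw [Real.dist_eq, sub_zero, abs_of_pos (by positivity)]
    linarith
  refine ⟨min (τ * m) (d * m), by positivity, fun ρ hρ hρδ => ?_⟩
  have e1 : ρ ≤ τ * m := hρδ.trans (min_le_left _ _)
  have e2 : ρ ≤ d * m := hρδ.trans (min_le_right _ _)
  have e3 : C * (ρ / m) ^ α ≤ ε := by
    refine le_trans (mul_le_mul_of_nonneg_left (Real.rpow_le_rpow (by positivity) ?_ hα.le) hC.le) hd
    rw [div_le_iff₀ hm0]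
    exact e2
  have hm1 : m = min (min rp' rp) r := by rw [hm, min_comm rp']
  have hm2 : m ≤ min (min rp' rp') r := by
    rw [hm]
    exact min_le_min (le_min (min_le_right _ _) (min_le_right _ _)) le_rfl
  have h1 := h S₀ S νp rp rp' hS hF hF' w r hr0 ρ hρ (by rw [← hm]; exact e1)
  have h2 := h S S νp rp' rp' (SameB.refl S) hF' hF' w r hr0 ρ hρ
    (e1.trans (mul_le_mul_of_nonneg_left hm2 hτ.le))
  filter_upwards [h1, h2, hex₁, hex₂] with n h1 h2 hex₁ hex₂ hev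
  have h1 := h1 hev
  have h2 := h2 (by rw [trv_self]; exact ⟨0, rfl⟩)
  have hn0 : (0 : ℝ) ≤ n := Nat.cast_nonneg n
  have hN : 0 < Nf θ K₀ P (rN n ρ) := QB.Nf_pos _ _ _ _
  have hex₁' : ∃ l, Evl S₀ w n l ∧ r * n ≤ 2 * (nm (qw S₀ w n l - qw S₀ w n 0) : ℝ) := by
    obtain ⟨l, a1, a2⟩ := hex₁
    exact ⟨l, a1, (mul_le_mul_of_nonneg_right hra hn0).trans a2⟩
  have hex₂' : ∃ l, Evl S w n l ∧ r * n ≤ 2 * (nm (qw S w n l - qw S w n 0) : ℝ) := by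
    obtain ⟨l, a1, a2⟩ := hex₂
    exact ⟨l, a1, (mul_le_mul_of_nonneg_right hrb hn0).trans a2⟩
  obtain ⟨l₂, g1, g2⟩ := tW_spec (θ := θ) (S := S) (w := w) (χp := χp) (νp := νp) (ρ := ρ) (r := r)
    (fun l hl => pos_of_mul hN hc (h2 l l hl hl).1) hex₂'
  obtain ⟨l₁, f1, f2⟩ := tW_spec (θ := θ) (S := S₀) (w := w) (χp := χp) (νp := νp) (ρ := ρ)
    (r := r) (fun l hl => pos_of_mul hN hc (h1 l l₂ hl g1).1) hex₁'
  have h3 := (h1 l₁ l₂ f1 g1).2.2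
  have h4 := pos_of_mul hN hc (h1 l₁ l₂ f1 g1).1
  rw [g2, f2, abs_sub_comm]
  rw [← hm] at h3
  exact h3.trans (mul_le_mul_of_nonneg_right e3 h4.le)

/-- The input on the side of the base point for one polygon. -/
theorem PSideU.pSide {χp : ℂ → ℝ} (hU : PSideU θ P χp) (S : CA.Dat) {νp : ℂ} {rp : ℝ}
    (hF : Flat S.P S.bp νp rp) (w : Bool) : PSide θ P χp S νp rp w := by
  obtain ⟨α, hα, K₀, -, h⟩ := hU
  refine ⟨K₀, fun K hK => ?_⟩
  obtain ⟨h2, c, C, τ, hc, hC, hτ, h3⟩ := h K hK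
  refine ⟨⟨1, one_pos, fun ρ hρ _ j hj => h2 S νp rp hF w j hj ρ hρ⟩, c, C, α, τ, hc, hC, hα, hτ,
    fun r ρ hr hρ hρτ => ?_⟩
  have h4 := h3 S S νp rp rp (SameB.refl S) hF hF w r hr ρ hρ (by rw [min_self]; exact hρτ)
  filter_upwards [h4] with n hn l l' hl hl'
  have h5 := hn (by rw [trv_self]; exact ⟨0, rfl⟩) l l'
    ⟨hl.1.1, hl.1.2.1, hl.1.2.2, hl.2⟩ ⟨hl'.1.1, hl'.1.2.1, hl'.1.2.2, hl'.2⟩
  rw [min_self] at h5
  exact h5

end Vale.Agent.P167.N.H386
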